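import Vale.Agent.P218UJ.Low
import Mathlib.MeasureTheory.Covering.BesicovitchVectorSpace
import Mathlib.MeasureTheory.Covering.Differentiation

/-! `L3`: every family of closed level curves has a definite amount of curvature. -/

open MeasureTheory Set Filter Topology Metric
open scoped ENNReal NNReal RealInnerProductSpace ContDiff

namespace Vale.Agent.P218UJ

open Vale.Agent.P218UA Vale.Agent.P218UL Vale.Agent.P218UE
open Vale.Agent.P218.H63 (inner_gradient inner_gradient' contDiff_gradient)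

/-- the test function `⟨y - z, X / |X|⟩ / √(|y - z|² + ε²)` -/
noncomputable def gg (X : E3 → E3) (z : E3) (ε : ℝ) (y : E3) : ℝ :=
  ⟪y - z, X y⟫ / (√⟪X y, X y⟫ * √(⟪y - z, y - z⟫ + ε ^ 2))

lemma contDiffAt_gg {X : E3 → E3} {z x : E3} {ε : ℝ} (hX : ContDiff ℝ 1 X) (h0 : X x ≠ 0)
    (hε : 0 < ε) : ContDiffAt ℝ 1 (gg X z ε) x := by
  have h1 : 0 < ⟪X x, X x⟫ := real_inner_self_pos.2 h0
  have h2 : 0 < ⟪x - z, x - z⟫ + ε ^ 2 := by
    have : 0 ≤ ⟪x - z, x - z⟫ := real_inner_self_nonneg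
    positivity
  have h3 : ContDiff ℝ 1 fun y : E3 => y - z := contDiff_id.sub contDiff_const
  unfold gg
  exact (h3.inner ℝ hX).contDiffAt.div (((hX.inner ℝ hX).contDiffAt.sqrt h1.ne').mul
    (((h3.inner ℝ h3).add contDiff_const).contDiffAt.sqrt h2.ne')) (by positivity)

lemma perp_le (y X P : E3) (h0 : X ≠ 0) :
    |⟪y, P⟫ - ⟪y, X⟫ * ⟪X, P⟫ / ‖X‖ ^ 2| ≤ ‖y‖ * ‖P‖ := by
  have hq : 0 < ‖X‖ := norm_pos_iff.2 h0
  have h1 : ⟪y, P⟫ - ⟪y, X⟫ * ⟪X, P⟫ / ‖X‖ ^ 2 = ⟪y, P - (⟪X, P⟫ / ‖X‖ ^ 2) • X⟫ := by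
    rw [inner_sub_right, inner_smul_right]; ring
  rw [h1]
  refine (abs_real_inner_le_norm _ _).trans (mul_le_mul_of_nonneg_left ?_ (norm_nonneg _))
  refine abs_le_of_sq_le_sq' ?_ (norm_nonneg _) |>.2
  rw [norm_sub_sq_real, inner_smul_right, norm_smul, Real.norm_eq_abs, mul_pow, sq_abs,
    real_inner_comm X P]
  have h2 : (⟪X, P⟫ / ‖X‖ ^ 2) ^ 2 * ‖X‖ ^ 2 = ⟪X, P⟫ / ‖X‖ ^ 2 * ⟪X, P⟫ := by field_simp
  have h3 : 0 ≤ (⟪X, P⟫ / ‖X‖ ^ 2) ^ 2 * ‖X‖ ^ 2 := by positivity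
  linarith

/-- the derivative of the test function along the field -/
lemma fderiv_gg_ge {X : E3 → E3} {z x : E3} {ε G : ℝ} (hX : ContDiff ℝ 1 X) (h0 : X x ≠ 0)
    (hε : 0 < ε) (hG : ‖fderiv ℝ X x (X x)‖ ≤ G * ‖X x‖) :
    ‖X x‖ * ε ^ 2 / √(‖x - z‖ ^ 2 + ε ^ 2) ^ 3 - G ≤ fderiv ℝ (gg X z ε) x (X x) := by
  set v := X x with hv
  set P := fderiv ℝ X x v with hP
  have hq : 0 < ‖v‖ := norm_pos_iff.2 h0
  have hγ : HasDerivAt (fun s : ℝ => x + s • v) v 0 := by
    simpa using ((hasDerivAt_id (0 : ℝ)).smul_const v).const_add x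
  have hx : x = x + (0 : ℝ) • v := by simp
  have h1 : HasDerivAt (fun s : ℝ => gg X z ε (x + s • v)) (fderiv ℝ (gg X z ε) x v) 0 :=
    HasFDerivAt.comp_hasDerivAt_of_eq (0 : ℝ)
      ((contDiffAt_gg hX h0 hε).differentiableAt (by norm_num)).hasFDerivAt hγ hx
  have h2 : HasDerivAt (fun s : ℝ => X (x + s • v)) P 0 :=
    HasFDerivAt.comp_hasDerivAt_of_eq (0 : ℝ)
      (hX.differentiable (by norm_num) x).hasFDerivAt hγ hx
  have h3 : HasDerivAt (fun s : ℝ => x + s • v - z) v 0 := hγ.sub_const z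
  have hρ0 : 0 < ‖x - z‖ ^ 2 + ε ^ 2 := by positivity
  have h4 := (h3.inner ℝ h2).div (((h2.inner ℝ h2).sqrt (by simpa using h0)).mul
    (((h3.inner ℝ h3).add_const (ε ^ 2)).sqrt (by simpa using hρ0.ne')))
    (by simpa using ⟨h0, (Real.sqrt_pos.2 hρ0).ne'⟩)
  rw [h1.unique h4]
  simp only [zero_smul, add_zero, Pi.mul_apply, ← hv, real_inner_self_eq_norm_sq,
    Real.sqrt_sq hq.le, real_inner_comm (x - z) v, real_inner_comm v P]
  set ρ := √(‖x - z‖ ^ 2 + ε ^ 2) with hρ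
  have hρ1 : 0 < ρ := Real.sqrt_pos.2 hρ0
  have hρ2 : ρ ^ 2 = ‖x - z‖ ^ 2 + ε ^ 2 := Real.sq_sqrt hρ0.le
  have hyρ : ‖x - z‖ ≤ ρ := abs_le_of_sq_le_sq' (by rw [hρ2]; nlinarith) hρ1.le |>.2
  have h5 := (abs_le.1 (perp_le (x - z) v P h0)).1
  have h6 : ⟪x - z, v⟫ ^ 2 ≤ ‖x - z‖ ^ 2 * ‖v‖ ^ 2 := by
    rw [← mul_pow, ← sq_abs]
    exact pow_le_pow_left₀ (abs_nonneg _) (abs_real_inner_le_norm _ _) 2
  set a := ⟪x - z, v⟫
  set b := ⟪x - z, P⟫
  set c := ⟪v, P⟫
  set q := ‖v‖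
  have h7 : ((b + q ^ 2) * (q * ρ) - a * ((c + c) / (2 * q) * ρ + q * ((a + a) / (2 * ρ))))
      / (q * ρ) ^ 2 = (q ^ 2 * ρ ^ 2 - a ^ 2) / (q * ρ ^ 3) + (b - a * c / q ^ 2) / (q * ρ) := by
    field_simp
    ring
  rw [h7]
  have h8 : q * ε ^ 2 / ρ ^ 3 ≤ (q ^ 2 * ρ ^ 2 - a ^ 2) / (q * ρ ^ 3) := by
    rw [div_le_div_iff₀ (by positivity) (by positivity), hρ2]
    have : 0 < ρ ^ 3 := by positivity
    nlinarith
  have h9 : -G ≤ (b - a * c / q ^ 2) / (q * ρ) := by
    rw [le_div_iff₀ (by positivity)]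
    have h10 : ‖x - z‖ * ‖P‖ ≤ ρ * (G * q) :=
      mul_le_mul hyρ hG (norm_nonneg _) hρ1.le
    nlinarith
  linarith

lemma norm_DX_le {w f : E3 → ℝ} (hw : IsSurf w) (hf : ContDiff ℝ 2 f) {x : E3} (hx : w x = 0)
    (v : E3) : ‖fderiv ℝ (XX w f) x v‖ ≤ P218UE.GG w f x * ‖v‖ := by
  rw [fderiv_XX hw.c2 hf, P218UE.GG]
  refine (norm_add_le _ _).trans ?_
  have h1 := norm_cr_le (hs w x v) (gradient f x)
  have h2 := norm_cr_le (gradient w x) (hs f x v)
  rw [hw.unit hx, one_mul] at h2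
  have h3 := (hs w x).le_opNorm v
  have h4 := (hs f x).le_opNorm v
  nlinarith [norm_nonneg (gradient f x)]

lemma continuous_hs {f : E3 → ℝ} (hf : ContDiff ℝ 2 f) : Continuous (hs f) :=
  (contDiff_gradient (n := 1) hf (by norm_num)).continuous_fderiv (by norm_num)

lemma continuous_GG {w f : E3 → ℝ} (hw : ContDiff ℝ 2 w) (hf : ContDiff ℝ 2 f) :
    Continuous (P218UE.GG w f) :=
  (continuous_hs hf).norm.add
    ((contDiff_gradient (n := 1) hf (by norm_num)).continuous.norm.mul (continuous_hs hw).norm)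

lemma GG_nonneg (w f : E3 → ℝ) (x : E3) : 0 ≤ P218UE.GG w f x := by
  unfold P218UE.GG; positivity

lemma integrable_ar (hC : Calc) {w φ : E3 → ℝ} (hw : IsSurf w) (hM : IsCompact {x | w x = 0})
    (hφ : Continuous φ) : Integrable φ (ar w) := by
  have := hC.locFin w hw
  have h : IntegrableOn φ {x | w x = 0} (ar w) := hφ.continuousOn.integrableOn_compact hM
  rwa [IntegrableOn, Measure.restrict_eq_self_of_ae_mem (s := {x | w x = 0}) hw.ae] at h

/-- along the surface the function grows at most like twice the tangential gradient -/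
lemma ev_level {w f : E3 → ℝ} (hw : IsSurf w) (hf : ContDiff ℝ 2 f) {z : E3} (hz : w z = 0)
    (h0 : gM w f z ≠ 0) :
    ∀ᶠ y in 𝓝 z, w y = 0 → |f y - f z| ≤ 2 * ‖gM w f z‖ * ‖y - z‖ := by
  have hq : 0 < ‖gM w f z‖ := norm_pos_iff.2 h0
  set a := ⟪gradient w z, gradient f z⟫ with ha
  have hδ : 0 < ‖gM w f z‖ / (1 + |a|) := by positivity
  filter_upwards [ev_lin (hf.differentiable (by norm_num) z) hδ,
    ev_lin (hw.c2.differentiable (by norm_num) z) hδ] with y h1 h2 hy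
  rw [hy, hz, sub_zero, zero_sub, abs_neg] at h2
  have h3 : ⟪gradient f z, y - z⟫ = ⟪gM w f z, y - z⟫ + a * ⟪gradient w z, y - z⟫ := by
    rw [gM, gT, inner_sub_left, inner_smul_left]; simp [ha]
  have h4 := abs_real_inner_le_norm (gM w f z) (y - z)
  have h5 : |a * ⟪gradient w z, y - z⟫| ≤ |a| * (‖gM w f z‖ / (1 + |a|) * ‖y - z‖) := by
    rw [abs_mul]; gcongr
  have h6 : ‖gM w f z‖ / (1 + |a|) * ‖y - z‖ + |a| * (‖gM w f z‖ / (1 + |a|) * ‖y - z‖)
      = ‖gM w f z‖ * ‖y - z‖ := by field_simp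
  have h7 : f y - f z = (f y - f z - ⟪gradient f z, y - z⟫) + ⟪gM w f z, y - z⟫
      + a * ⟪gradient w z, y - z⟫ := by rw [h3]; ring
  rw [h7]
  refine (abs_add_three _ _ _).trans ?_
  linarith

lemma measurableSet_piece {w f : E3 → ℝ} (hw : IsSurf w) (hf : Continuous f) {t₁ t₂ : ℝ}
    {V : Set E3} (hV : Piece w f t₁ t₂ V) : MeasurableSet V := by
  obtain ⟨O, hO, rfl⟩ := hV.opn
  exact hO.measurableSet.inter (hw.closed.measurableSet.inter
    (((isOpen_lt continuous_const hf).inter (isOpen_lt hf continuous_const)).measurableSet))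

/-- the integral inequality given by Stokes' theorem -/
lemma stokes_ineq (hC : Calc) {w f : E3 → ℝ} (hw : IsSurf w) (hM : IsCompact {x | w x = 0})
    (hf : ContDiff ℝ 2 f) {t₁ t₂ : ℝ} (hr : ∀ x ∈ strip w f t₁ t₂, gM w f x ≠ 0) {V : Set E3}
    (hV : Piece w f t₁ t₂ V) {θ : ℝ → ℝ} (hθ : ContDiff ℝ 1 θ) (hθ0 : ∀ t, 0 ≤ θ t) {a b : ℝ}
    (hab : Icc a b ⊆ Ioo t₁ t₂) (hθs : ∀ t, t ∉ Icc a b → θ t = 0) (z : E3) {ε : ℝ}
    (hε : 0 < ε) :
    ∫ x in V, θ (f x) * (‖XX w f x‖ * ε ^ 2 / √(‖x - z‖ ^ 2 + ε ^ 2) ^ 3) ∂(ar w)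
      ≤ ∫ x in V, θ (f x) * P218UE.GG w f x ∂(ar w) := by
  have hVm := measurableSet_piece hw hf.continuous hV
  obtain ⟨O, hO, hVO⟩ := hV.opn
  obtain ⟨Z, hZ, hVZ⟩ := hV.cls
  have hX := contDiff_XX hw.c2 hf
  have hst : ∀ x, w x = 0 → f x ∈ Icc a b → x ∈ strip w f t₁ t₂ := fun x h1 h2 =>
    ⟨h1, (hab h2).1, (hab h2).2⟩
  have hX0 : ∀ x ∈ strip w f t₁ t₂, XX w f x ≠ 0 := fun x hx => by
    rw [← norm_ne_zero_iff, normSq_XX (hw.unit hx.1), norm_ne_zero_iff]
    exact hr x hx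
  have hK : IsCompact ({x | w x = 0} ∩ (Z ∩ f ⁻¹' Icc a b)) :=
    hM.inter_right (hZ.inter (isClosed_Icc.preimage hf.continuous))
  obtain ⟨χ, hχ, hχc, hχs, hχ1, -⟩ := exists_cut hK
    (hO.inter (isOpen_ne_fun hX.continuous continuous_const)) (fun x hx => by
      have h1 := hst x hx.1 hx.2.2
      have h2 : x ∈ V := hVZ ▸ ⟨hx.2.1, h1⟩
      exact ⟨(hVO ▸ h2).1, hX0 x h1⟩)
  have hB : ContDiff ℝ 1 fun x => χ x * gg (XX w f) z ε x := by
    refine contDiff_iff_contDiffAt.2 fun x => ?_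
    by_cases hx : x ∈ tsupport χ
    · exact (hχ.of_le (by simp)).contDiffAt.mul (contDiffAt_gg hX (hχs hx).2 hε)
    · refine (contDiffAt_const (c := 0)).congr_of_eventuallyEq ?_
      filter_upwards [notMem_tsupport_iff_eventuallyEq.1 hx] with y hy
      simp [hy]
  have hT : ContDiff ℝ 1 fun x => θ (f x) := hθ.comp (hf.of_le (by norm_num))
  have hA : ContDiff ℝ 1 fun x => θ (f x) * (χ x * gg (XX w f) z ε x) := hT.mul hB
  have hS := stokes hC hw hf hA (hχc.mul_right.mul_left)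
  have hρ : ∀ x : E3, 0 < √(‖x - z‖ ^ 2 + ε ^ 2) := fun x => Real.sqrt_pos.2 (by positivity)
  have i1 : Integrable (fun x => θ (f x) *
      (‖XX w f x‖ * ε ^ 2 / √(‖x - z‖ ^ 2 + ε ^ 2) ^ 3)) (ar w) :=
    integrable_ar hC hw hM (hT.continuous.mul ((hX.continuous.norm.mul continuous_const).div
      (by fun_prop) fun x => (pow_pos (hρ x) 3).ne'))
  have i2 : Integrable (fun x => θ (f x) * P218UE.GG w f x) (ar w) :=
    integrable_ar hC hw hM (hT.continuous.mul (continuous_GG hw.c2 hf))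
  rw [← sub_nonpos, ← integral_sub i1.integrableOn i2.integrableOn, ← integral_indicator hVm,
    ← hS]
  refine integral_mono_ae ((i1.sub i2).indicator hVm) (integrable_ar hC hw hM
    ((hA.continuous_fderiv (by norm_num)).clm_apply hX.continuous)) ?_
  filter_upwards [hw.ae] with x hx
  have hd : fderiv ℝ (fun x => θ (f x) * (χ x * gg (XX w f) z ε x)) x (XX w f x)
      = θ (f x) * fderiv ℝ (fun x => χ x * gg (XX w f) z ε x) x (XX w f x) := by
    have h1 : fderiv ℝ (fun x => θ (f x)) x (XX w f x) = 0 := by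
      have h2 := ((hθ.differentiable (by norm_num) (f x)).hasDerivAt.comp_hasFDerivAt x
        (hf.differentiable (by norm_num) x).hasFDerivAt).fderiv
      have h3 : fderiv ℝ f x (XX w f x) = 0 := by
        rw [← inner_gradient]; exact inner_cr_right _ _
      change fderiv ℝ (θ ∘ f) x (XX w f x) = 0
      rw [h2]; simp [h3]
    rw [fderiv_fun_mul (hT.differentiable (by norm_num) x) (hB.differentiable (by norm_num) x)]
    simp [h1]
  rw [hd]
  by_cases h1 : f x ∈ Icc a b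
  swap
  · rw [hθs _ h1, zero_mul]
    refine indicator_apply_le' (fun _ => ?_) fun _ => le_rfl
    rw [hθs _ h1]; simp
  have h2 := hst x hx h1
  by_cases h3 : x ∈ V
  · rw [indicator_of_mem h3, ← mul_sub]
    refine mul_le_mul_of_nonneg_left ?_ (hθ0 _)
    have h4 : (fun x => χ x * gg (XX w f) z ε x) =ᶠ[𝓝 x] gg (XX w f) z ε := by
      filter_upwards [hχ1 x ⟨hx, (hVZ ▸ h3).1, h1⟩] with y hy
      rw [hy, one_mul]
    rw [h4.fderiv_eq]
    exact fderiv_gg_ge hX (hX0 x h2) hε (norm_DX_le hw hf hx _)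
  · rw [indicator_of_notMem h3]
    have h4 : x ∉ tsupport χ := fun h => h3 (hVO ▸ ⟨(hχs h).1, h2⟩)
    have h5 : (fun x => χ x * gg (XX w f) z ε x) =ᶠ[𝓝 x] fun _ => 0 := by
      filter_upwards [notMem_tsupport_iff_eventuallyEq.1 h4] with y hy
      simp [hy]
    rw [h5.fderiv_eq]
    simp

/-- the lower bound at one level -/
lemma one_level (hC : Calc) {w f : E3 → ℝ} (hw : IsSurf w) (hM : IsCompact {x | w x = 0})
    (hf : ContDiff ℝ 2 f) {t₁ t₂ : ℝ} (hr : ∀ x ∈ strip w f t₁ t₂, gM w f x ≠ 0) {V : Set E3}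
    (hV : Piece w f t₁ t₂ V) {s : ℝ} (hs : s ∈ Ioo t₁ t₂) :
    ∀ᶠ η in 𝓝[>] (0 : ℝ), η / 128
      ≤ ∫ x in V ∩ f ⁻¹' closedBall s η, P218UE.GG w f x ∂(ar w) := by
  have := hC.locFin w hw
  have hVm := measurableSet_piece hw hf.continuous hV
  obtain ⟨z, hzV, hz⟩ := hV.onto s hs
  obtain ⟨O, hO, hVO⟩ := hV.opn
  have hzS : z ∈ strip w f t₁ t₂ := (hVO ▸ hzV).2
  have hX := contDiff_XX hw.c2 hf
  set q := ‖gM w f z‖ with hq
  have hq0 : 0 < q := norm_pos_iff.2 (hr z hzS)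
  have hXz : ‖XX w f z‖ = q := normSq_XX (hw.unit hzS.1)
  have e1 : ∀ᶠ y in 𝓝 z, q / 2 < ‖XX w f y‖ :=
    hX.continuous.norm.continuousAt.eventually (lt_mem_nhds (show q / 2 < ‖XX w f z‖ by linarith))
  obtain ⟨δ, hδ, hb⟩ := Metric.eventually_nhds_iff.1
    ((ev_level hw hf hzS.1 (hr z hzS)).and (e1.and (hO.mem_nhds (hVO ▸ hzV).1)))
  have e2 : Tendsto (fun η : ℝ => η / q / 4) (𝓝[>] 0) (𝓝[>] 0) := by
    refine tendsto_nhdsWithin_iff.2 ⟨?_, ?_⟩
    · have : Tendsto (fun η : ℝ => η / q / 4) (𝓝 0) (𝓝 (0 / q / 4)) :=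
        Continuous.tendsto (by fun_prop) 0
      simpa using this.mono_left nhdsWithin_le_nhds
    · filter_upwards [self_mem_nhdsWithin] with η hη
      have : 0 < η := hη
      exact mem_Ioi.2 (by positivity)
  have e3 : 0 < min (s - t₁) (t₂ - s) := lt_min (by linarith [hs.1]) (by linarith [hs.2])
  filter_upwards [e2.eventually (low_dens hw hzS.1), e2.eventually (Ioo_mem_nhdsGT hδ),
    Ioo_mem_nhdsGT e3] with η hlow hηδ hη
  have hη0 := hη.1
  have hη1 : η < s - t₁ := hη.2.trans_le (min_le_left _ _)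
  have hη2 : η < t₂ - s := hη.2.trans_le (min_le_right _ _)
  let θ : ContDiffBump s := ⟨η / 2, η, by linarith, by linarith⟩
  have hε : 0 < η / q := by positivity
  have hθs : ∀ t, t ∉ closedBall s η → θ t = 0 := fun t ht =>
    θ.zero_of_le_dist (le_of_lt (not_le.1 ht))
  have hsub : Icc (s - η) (s + η) ⊆ Ioo t₁ t₂ := Icc_subset_Ioo (by linarith) (by linarith)
  have h1 := stokes_ineq hC hw hM hf hr hV (θ := θ) θ.contDiff (fun t => θ.nonneg) hsub
    (fun t ht => hθs t (by rwa [Real.closedBall_eq_Icc])) z hε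
  set ε := η / q with hεd
  have hT : Continuous fun x => θ (f x) := θ.continuous.comp hf.continuous
  have hρ : ∀ x : E3, 0 < √(‖x - z‖ ^ 2 + ε ^ 2) := fun x => Real.sqrt_pos.2 (by positivity)
  have i1 : Integrable (fun x => θ (f x) *
      (‖XX w f x‖ * ε ^ 2 / √(‖x - z‖ ^ 2 + ε ^ 2) ^ 3)) (ar w) :=
    integrable_ar hC hw hM (hT.mul ((hX.continuous.norm.mul continuous_const).div
      (by fun_prop) fun x => (pow_pos (hρ x) 3).ne'))
  have i2 : Integrable (fun x => θ (f x) * P218UE.GG w f x) (ar w) :=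
    integrable_ar hC hw hM (hT.mul (continuous_GG hw.c2 hf))
  have i3 : Integrable (P218UE.GG w f) (ar w) := integrable_ar hC hw hM (continuous_GG hw.c2 hf)
  have hm : MeasurableSet (V ∩ f ⁻¹' closedBall s η) :=
    hVm.inter (isClosed_closedBall.preimage hf.continuous).measurableSet
  refine le_trans ?_ (h1.trans ?_)
  · have h2 : ε ^ 2 / 32 ≤ (ar w).real (ball z (ε / 4)) := by
      rw [Measure.real, ← ENNReal.ofReal_le_iff_le_toReal measure_ball_lt_top.ne]
      convert hlow using 2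
      ring
    have h3 : η / 128 = ε ^ 2 / 32 * (q / (4 * ε)) := by rw [hεd]; field_simp; norm_num
    rw [h3]
    refine (mul_le_mul_of_nonneg_right h2 (by positivity)).trans ?_
    rw [← smul_eq_mul, ← setIntegral_const, ← integral_indicator measurableSet_ball,
      ← integral_indicator hVm]
    refine integral_mono_ae ((integrable_indicator_iff measurableSet_ball).2
      (integrableOn_const measure_ball_lt_top.ne)) (i1.indicator hVm) ?_
    filter_upwards [hw.ae] with x hx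
    refine indicator_apply_le' (fun hxb => ?_) fun _ => indicator_nonneg (fun y _ =>
      mul_nonneg θ.nonneg (by positivity)) x
    rw [mem_ball_iff_norm] at hxb
    obtain ⟨g1, g2, g3⟩ := hb (y := x) (by rw [dist_eq_norm]; exact hxb.trans hηδ.2)
    have g4 : |f x - s| ≤ η / 2 := by
      have g5 := g1 hx
      rw [hz] at g5
      have g6 : q * ε = η := by rw [hεd]; field_simp
      nlinarith
    have g5 := abs_le.1 g4
    have hxV : x ∈ V := hVO ▸ ⟨g3, hx, by linarith, by linarith⟩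
    rw [indicator_of_mem hxV, θ.one_of_mem_closedBall (by rwa [mem_closedBall, Real.dist_eq]),
      one_mul, div_le_div_iff₀ (by positivity) (pow_pos (hρ x) 3)]
    have g6 : √(‖x - z‖ ^ 2 + ε ^ 2) ≤ 5 / 4 * ε :=
      Real.sqrt_le_iff.2 ⟨by positivity, by nlinarith [norm_nonneg (x - z)]⟩
    have g7 : √(‖x - z‖ ^ 2 + ε ^ 2) ^ 3 ≤ (5 / 4 * ε) ^ 3 := pow_le_pow_left₀ (hρ x).le g6 3
    have g8 : 0 < ε ^ 3 := by positivity
    nlinarith
  · rw [← integral_indicator hVm, ← integral_indicator hm]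
    refine integral_mono (i2.indicator hVm) (i3.indicator hm) fun x => ?_
    refine indicator_apply_le' (fun hxV => ?_) fun _ => indicator_nonneg (fun y _ =>
      GG_nonneg w f y) x
    by_cases h2 : f x ∈ closedBall s η
    · rw [indicator_of_mem (show x ∈ V ∩ f ⁻¹' closedBall s η from ⟨hxV, h2⟩)]
      exact mul_le_of_le_one_left (GG_nonneg w f x) θ.le_one
    · rw [hθs _ h2, zero_mul]
      exact indicator_nonneg (fun y _ => GG_nonneg w f y) x

/-- **L3** -/
theorem l3 (hC : Calc) : L3Stmt := by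
  refine ⟨1 / 256, by norm_num, fun w hw hM f hf t₁ t₂ ht hr V hV θ hθ hθ0 => ?_⟩
  have hf2 : ContDiff ℝ 2 f := hf.of_le two_le_inf
  have hVm := measurableSet_piece hw hf.continuous hV
  have hG := continuous_GG hw.c2 hf2
  have hfm : Measurable f := hf.continuous.measurable
  have i3 : Integrable (P218UE.GG w f) (ar w) := integrable_ar hC hw hM hG
  have hGm : Measurable fun x => ENNReal.ofReal (P218UE.GG w f x) := hG.measurable.ennreal_ofReal
  set lam : Measure ℝ := (((ar w).restrict V).withDensity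
    fun x => ENNReal.ofReal (P218UE.GG w f x)).map f with hlam
  have : IsFiniteMeasure lam := by
    have := isFiniteMeasure_withDensity_ofReal (i3.integrableOn (s := V)).2
    infer_instance
  have h1 : (ENNReal.ofReal (1 / 256) • (volume : Measure ℝ)).restrict (Ioo t₁ t₂) ≤ lam := by
    refine Measure.le_iff.2 fun A hA => ?_
    rw [Measure.restrict_apply hA]
    refine le_trans ?_ (measure_mono (inter_subset_left (t := Ioo t₁ t₂)))
    refine (Besicovitch.vitaliFamily (volume : Measure ℝ)).measure_le_of_frequently_le lam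
      (Measure.smul_absolutelyContinuous) _ fun s hs => ?_
    refine (Besicovitch.tendsto_filterAt volume s).frequently (Eventually.frequently ?_)
    filter_upwards [one_level hC hw hM hf2 hr hV hs.2, self_mem_nhdsWithin] with η h1 hη
    have hη0 : 0 < η := hη
    have hm : MeasurableSet (f ⁻¹' closedBall s η) := hfm measurableSet_closedBall
    rw [hlam, Measure.map_apply hfm measurableSet_closedBall, withDensity_apply _ hm,
      Measure.restrict_restrict hm, inter_comm,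
      ← ofReal_integral_eq_lintegral_ofReal i3.integrableOn
        (Eventually.of_forall (GG_nonneg w f)), Measure.smul_apply, Real.volume_closedBall,
      smul_eq_mul, ← ENNReal.ofReal_mul (by norm_num)]
    exact ENNReal.ofReal_le_ofReal (by linarith)
  have h2 := lintegral_mono' h1 (le_refl fun t => ENNReal.ofReal (θ t))
  have i4 : Integrable (fun x => θ (f x) * P218UE.GG w f x) (ar w) :=
    integrable_ar hC hw hM ((hθ.comp hf.continuous).mul hG)
  have h3 : ∀ x, 0 ≤ θ (f x) * P218UE.GG w f x := fun x => mul_nonneg (hθ0 _) (GG_nonneg w f x)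
  rw [hlam, lintegral_map hθ.measurable.ennreal_ofReal hfm,
    lintegral_withDensity_eq_lintegral_mul _ hGm (g := fun x => ENNReal.ofReal (θ (f x)))
      (hθ.measurable.comp hfm).ennreal_ofReal,
    Measure.restrict_smul, lintegral_smul_measure,
    ← ofReal_integral_eq_lintegral_ofReal
      (hθ.continuousOn.integrableOn_Icc.mono_set Ioo_subset_Icc_self) (Eventually.of_forall hθ0),
    smul_eq_mul, ← ENNReal.ofReal_mul (by norm_num)] at h2
  rw [intervalIntegral.integral_of_le ht.le, integral_Ioc_eq_integral_Ioo,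
    ← ENNReal.ofReal_le_ofReal_iff (integral_nonneg h3),
    ofReal_integral_eq_lintegral_ofReal i4.integrableOn (Eventually.of_forall h3)]
  refine h2.trans (le_of_eq (lintegral_congr fun x => ?_))
  rw [Pi.mul_apply, ← ENNReal.ofReal_mul (GG_nonneg w f x), mul_comm]

end Vale.Agent.P218UJ
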