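import Vale.Agent.P218UE.Props
import Vale.Agent.P218.H63.Geom
import Mathlib.MeasureTheory.Measure.Lebesgue.VolumeOfBalls
import Mathlib.Geometry.Manifold.PartitionOfUnity

/-! The lower density bound at a point of a surface, the Stokes identity for the field
`∇w × ∇f`, and smooth cut-off functions. -/

open MeasureTheory Set Filter Topology Metric
open scoped ENNReal NNReal RealInnerProductSpace ContDiff Manifold

namespace Vale.Agent.P218UJ

open Vale.Agent.P218UA Vale.Agent.P218UL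
open Vale.Agent.P218.H63 (lap hessSq inner_gradient inner_gradient' contDiff_gradient hess_symm)

lemma two_le_inf : (2 : WithTop ℕ∞) ≤ ((⊤ : ℕ∞) : WithTop ℕ∞) :=
  WithTop.coe_le_coe.2 (le_top : (2 : ℕ∞) ≤ ⊤)

lemma _root_.Vale.Agent.P218UA.IsSurf.c2 {w : E3 → ℝ} (hw : IsSurf w) : ContDiff ℝ 2 w :=
  hw.smooth.of_le two_le_inf

lemma _root_.Vale.Agent.P218UA.IsSurf.unit {w : E3 → ℝ} (hw : IsSurf w) {x : E3} (hx : w x = 0) :
    ‖gradient w x‖ = 1 := (hw.eik x hx).self_of_nhds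

lemma _root_.Vale.Agent.P218UA.IsSurf.closed {w : E3 → ℝ} (hw : IsSurf w) :
    IsClosed {x | w x = 0} := isClosed_eq hw.smooth.continuous continuous_const

lemma _root_.Vale.Agent.P218UA.IsSurf.ae {w : E3 → ℝ} (hw : IsSurf w) :
    ∀ᵐ x ∂(ar w), w x = 0 := ae_restrict_mem hw.closed.measurableSet

/-- the Hessian of a distance function kills the gradient -/
lemma _root_.Vale.Agent.P218UA.IsSurf.hs_grad {w : E3 → ℝ} (hw : IsSurf w) {x : E3}
    (hx : w x = 0) : hs w x (gradient w x) = 0 := by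
  have h1 : ContDiff ℝ 1 (gradient w) := contDiff_gradient hw.c2 (by norm_num)
  have hd : HasFDerivAt (gradient w) (fderiv ℝ (gradient w) x) x :=
    (h1.differentiable (by norm_num) x).hasFDerivAt
  have h2 : HasFDerivAt (fun y => ‖gradient w y‖ ^ 2)
      (2 • (innerSL ℝ (gradient w x)).comp (fderiv ℝ (gradient w) x)) x := hd.norm_sq
  have h3 : (fun y => ‖gradient w y‖ ^ 2) =ᶠ[𝓝 x] fun _ => 1 := by
    filter_upwards [hw.eik x hx] with y hy
    rw [hy]; norm_num
  have h4 : HasFDerivAt (fun y => ‖gradient w y‖ ^ 2) (0 : E3 →L[ℝ] ℝ) x :=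
    (hasFDerivAt_const (1 : ℝ) x).congr_of_eventuallyEq h3
  have h5 := h2.unique h4
  apply ext_inner_left ℝ
  intro v
  rw [inner_zero_right, hs, ← hess_symm hw.c2]
  have h6 := congrArg (fun L : E3 →L[ℝ] ℝ => L v) h5
  simp at h6
  rw [real_inner_comm, inner_gradient]
  exact h6

/-- first-order expansion -/
lemma ev_lin {f : E3 → ℝ} {z : E3} (hf : DifferentiableAt ℝ f z) {ε : ℝ} (hε : 0 < ε) :
    ∀ᶠ y in 𝓝 z, |f y - f z - ⟪gradient f z, y - z⟫| ≤ ε * ‖y - z‖ := by
  have := hf.hasFDerivAt.isLittleO.bound hε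
  filter_upwards [this] with y hy
  rw [inner_gradient]
  exact hy

lemma euc_image_le {f : E3 → E2} (hf : LipschitzWith 1 f) (s : Set E3) :
    (volume : Measure E2) (f '' s) ≤ (μHE[2] : Measure E3) s := by
  rw [← EuclideanSpace.euclideanHausdorffMeasure_eq_volume 2]
  simp only [Measure.euclideanHausdorffMeasure_def, Measure.smul_apply]
  have := hf.hausdorffMeasure_image_le (d := ((2 : ℕ) : ℝ)) (by norm_num) s
  rw [ENNReal.coe_one, ENNReal.one_rpow, one_mul] at this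
  exact smul_le_smul_of_nonneg_left this zero_le

/-- lower density bound -/
theorem low_dens {w : E3 → ℝ} (hw : IsSurf w) {z : E3} (hz : w z = 0) :
    ∀ᶠ r in 𝓝[>] (0 : ℝ), ENNReal.ofReal (r ^ 2 / 2) ≤ ar w (ball z r) := by
  obtain ⟨e₁, e₂, F⟩ := exists_fr (hw.unit hz)
  set n := gradient w z with hn
  obtain ⟨δ, hδ, hb⟩ := Metric.eventually_nhds_iff.1
    (ev_lin (hw.c2.differentiable (by norm_num) z) (ε := 1 / 4) (by norm_num))
  filter_upwards [Ioo_mem_nhdsGT hδ] with r hr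
  let π : E3 → E2 := fun y => !₂[⟪e₁, y - z⟫, ⟪e₂, y - z⟫]
  have hπ : LipschitzWith 1 π := by
    refine LipschitzWith.of_dist_le_mul fun a b => ?_
    rw [NNReal.coe_one, one_mul, dist_eq_norm, dist_eq_norm]
    refine abs_le_of_sq_le_sq' ?_ (norm_nonneg _) |>.2
    have h1 : ‖π a - π b‖ ^ 2 = ⟪e₁, a - b⟫ ^ 2 + ⟪e₂, a - b⟫ ^ 2 := by
      rw [EuclideanSpace.real_norm_sq_eq, Fin.sum_univ_two]
      simp only [π, PiLp.sub_apply, Matrix.cons_val_zero, Matrix.cons_val_one, inner_sub_right]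
      ring
    rw [h1, F.normSq (a - b)]
    nlinarith [sq_nonneg ⟪n, a - b⟫]
  have hsub : ball (0 : E2) (r / 2) ⊆ π '' (ball z r ∩ {x | w x = 0}) := by
    intro ξ hξ
    rw [mem_ball_zero_iff] at hξ
    have hξ2 : ξ 0 ^ 2 + ξ 1 ^ 2 < r ^ 2 / 4 := by
      have := EuclideanSpace.real_norm_sq_eq ξ
      rw [Fin.sum_univ_two] at this
      nlinarith [norm_nonneg ξ]
    let y : ℝ → E3 := fun s => z + (ξ 0 • e₁ + ξ 1 • e₂ + s • n)
    have hy0 : ∀ s, y s - z = ξ 0 • e₁ + ξ 1 • e₂ + s • n := fun s => by simp [y]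
    have hy1 : ∀ s, ⟪e₁, y s - z⟫ = ξ 0 := fun s => by
      simp only [hy0, inner_add_right, inner_smul_right, F.i11, F.o12, F.o13]; ring
    have hy2 : ∀ s, ⟪e₂, y s - z⟫ = ξ 1 := fun s => by
      simp only [hy0, inner_add_right, inner_smul_right, F.i22, F.o21, F.o23]; ring
    have hy3 : ∀ s, ⟪n, y s - z⟫ = s := fun s => by
      simp only [hy0, inner_add_right, inner_smul_right, F.i33, F.o31, F.o32]; ring
    have hyn : ∀ s ∈ Icc (-(r / 2)) (r / 2), ‖y s - z‖ < r := fun s hs => by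
      refine lt_of_pow_lt_pow_left₀ 2 hr.1.le ?_
      rw [F.normSq, hy1, hy2, hy3]
      nlinarith [hs.1, hs.2, hr.1]
    have hyw : ∀ s ∈ Icc (-(r / 2)) (r / 2), |w (y s) - s| ≤ r / 4 := fun s hs => by
      have h1 := hb (y := y s) (by rw [dist_eq_norm]; exact (hyn s hs).trans hr.2)
      rw [hz, sub_zero, hy3] at h1
      linarith [hyn s hs]
    have hc : ContinuousOn (fun s => w (y s)) (Icc (-(r / 2)) (r / 2)) :=
      (hw.smooth.continuous.comp (by fun_prop)).continuousOn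
    have hle : -(r / 2) ≤ r / 2 := by linarith [hr.1]
    have h1 := abs_le.1 (hyw _ (left_mem_Icc.2 hle))
    have h2 := abs_le.1 (hyw _ (right_mem_Icc.2 hle))
    obtain ⟨s, hs, hs0⟩ := intermediate_value_Icc hle hc
      (show (0 : ℝ) ∈ Icc _ _ from ⟨by linarith [hr.1], by linarith [hr.1]⟩)
    refine ⟨y s, ⟨mem_ball_iff_norm.2 (hyn s hs), hs0⟩, ?_⟩
    ext i
    fin_cases i
    · simpa [π] using hy1 s
    · simpa [π] using hy2 s
  rw [ar, Measure.restrict_apply measurableSet_ball]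
  refine le_trans ?_ ((measure_mono hsub).trans (euc_image_le hπ _))
  rw [EuclideanSpace.volume_ball_fin_two, ← ENNReal.ofReal_pow (by linarith [hr.1]),
    ← ENNReal.ofReal_mul (by positivity)]
  refine ENNReal.ofReal_le_ofReal ?_
  nlinarith [Real.pi_gt_three, sq_nonneg r]

/-- the field tangent to the surface and to the level sets of `f` -/
noncomputable def XX (w f : E3 → ℝ) (x : E3) : E3 := cr (gradient w x) (gradient f x)

lemma contDiff_XX {w f : E3 → ℝ} (hw : ContDiff ℝ 2 w) (hf : ContDiff ℝ 2 f) :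
    ContDiff ℝ 1 (XX w f) :=
  contDiff_cr (contDiff_gradient hw (by norm_num)) (contDiff_gradient hf (by norm_num))

lemma fderiv_XX {w f : E3 → ℝ} (hw : ContDiff ℝ 2 w) (hf : ContDiff ℝ 2 f) (x v : E3) :
    fderiv ℝ (XX w f) x v
      = cr (hs w x v) (gradient f x) + cr (gradient w x) (hs f x v) :=
  fderiv_cr ((contDiff_gradient (n := 1) hw (by norm_num)).differentiable (by norm_num) x)
    ((contDiff_gradient (n := 1) hf (by norm_num)).differentiable (by norm_num) x) v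

lemma normSq_XX {w f : E3 → ℝ} {x : E3} (hx : ‖gradient w x‖ = 1) :
    ‖XX w f x‖ = ‖P218UE.gM w f x‖ := by
  refine (sq_eq_sq₀ (norm_nonneg _) (norm_nonneg _)).1 ?_
  rw [XX, normSq_cr, P218UE.gM, gT, norm_sub_sq_real, inner_smul_right, norm_smul, hx,
    real_inner_comm (gradient w x) (gradient f x), Real.norm_eq_abs, mul_one, sq_abs]
  ring

/-- the tangential divergence of the field vanishes -/
lemma trT_XX {w f : E3 → ℝ} (hw : IsSurf w) (hf : ContDiff ℝ 2 f) {x : E3} (hx : w x = 0) :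
    trT (gradient w x) (fderiv ℝ (XX w f) x) = 0 := by
  obtain ⟨e₁, e₂, F⟩ := exists_fr (hw.unit hx)
  have hA : ∀ a b, ⟪hs w x a, b⟫ = ⟪a, hs w x b⟫ := hess_symm hw.c2 x
  have hB : ∀ a b, ⟪hs f x a, b⟫ = ⟪a, hs f x b⟫ := hess_symm hf x
  have hA0 : ∀ a, ⟪gradient w x, hs w x a⟫ = 0 := fun a => by
    rw [← hA, hw.hs_grad hx, inner_zero_left]
  rw [trT, F.trace, real_inner_comm (gradient w x), add_sub_cancel_right, fderiv_XX hw.c2 hf,
    fderiv_XX hw.c2 hf, inner_add_right, inner_add_right, F.c1, F.c1, F.c2, F.c2, hA0, hA0,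
    F.o23, F.o13, F.i33, ← hA e₂ e₁, ← hB e₂ e₁, real_inner_comm e₁, real_inner_comm e₁]
  ring

/-- Stokes' theorem for the field `a ∇w × ∇f` -/
theorem stokes (hC : Calc) {w f a : E3 → ℝ} (hw : IsSurf w) (hf : ContDiff ℝ 2 f)
    (ha : ContDiff ℝ 1 a) (hc : HasCompactSupport a) :
    ∫ x, fderiv ℝ a x (XX w f x) ∂(ar w) = 0 := by
  have hX := contDiff_XX hw.c2 hf
  have h := hC.firstVar w hw (fun x => a x • XX w f x) (ha.smul hX) hc.smul_right
  have h0 : ∀ x, ⟪gradient w x, XX w f x⟫ = 0 := fun x => inner_cr_left _ _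
  have h1 : ∀ x, lap w x * ⟪a x • XX w f x, gradient w x⟫ = 0 := fun x => by
    rw [inner_smul_left, real_inner_comm, h0]; simp
  simp only [h1, integral_zero] at h
  rw [← h]
  refine integral_congr_ae ?_
  filter_upwards [hw.ae] with x hx
  obtain ⟨e₁, e₂, F⟩ := exists_fr (hw.unit hx)
  have h2 := trT_XX hw hf hx
  rw [trT, F.trace, real_inner_comm (gradient w x), add_sub_cancel_right] at h2 ⊢
  have h3 : ∀ v, fderiv ℝ (fun x => a x • XX w f x) x v
      = a x • fderiv ℝ (XX w f) x v + fderiv ℝ a x v • XX w f x := fun v => by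
    rw [fderiv_fun_smul (ha.differentiable (by norm_num) x) (hX.differentiable (by norm_num) x)]
    simp
  rw [h3, h3]
  conv_lhs => rw [F.expand (XX w f x)]
  simp only [map_add, map_smul, inner_add_right, inner_smul_right, h0, smul_eq_mul]
  linear_combination -(a x) * h2

/-- a smooth cut-off function -/
lemma exists_cut {K U : Set E3} (hK : IsCompact K) (hU : IsOpen U) (h : K ⊆ U) :
    ∃ χ : E3 → ℝ, ContDiff ℝ ∞ χ ∧ HasCompactSupport χ ∧ tsupport χ ⊆ U ∧
      (∀ x ∈ K, ∀ᶠ y in 𝓝 x, χ y = 1) ∧ ∀ x, χ x ∈ Icc (0 : ℝ) 1 := by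
  obtain ⟨L, hL, hKL, hLU⟩ := exists_compact_between hK hU h
  obtain ⟨χ, h1, h0, h01⟩ := exists_contMDiffMap_one_nhds_of_subset_interior (n := ⊤) 𝓘(ℝ, E3)
    hK.isClosed hKL
  have hs : tsupport χ ⊆ L :=
    closure_minimal (fun x hx => by_contra fun h => hx (h0 x h)) hL.isClosed
  exact ⟨χ, χ.contMDiff.contDiff, hL.of_isClosed_subset (isClosed_tsupport _) hs, hs.trans hLU,
    fun x hx => (eventually_nhdsSet_iff_forall.1 h1) x hx, h01⟩

end Vale.Agent.P218UJ
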